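import Vale.Agent.P038.H597.InOut

/-!
# P038: INOUT, the candidate pair and the comparison of the two minima
-/

set_option linter.unusedSectionVars false

namespace Vale.Agent.P038.H597

open Finset

variable {V : Type*} [Fintype V] [DecidableEq V]

/-- feasible pairs -/
structure Feas (N B U : V → Finset V) : Prop where
  hA : ∀ a, N a ⊆ B a
  hU : ∀ z b, z ∈ N b → b ∉ U z
  hB : ∀ a b, b ∈ B a → b ≠ a → b ∈ U a

/-- outer cost -/
def fo (N : V → Finset V) (w : V → ℝ) (B U : V → Finset V) : ℝ :=
  ∑ z, w z * (wt w (NS N (B z)) - wt w (B z) + wt w (U z) - wt w (cA N U z))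

/-- inner cost -/
def fi (N : V → Finset V) (w : V → ℝ) (B U : V → Finset V) : ℝ :=
  ∑ z, w z * (wt w (B z) - wt w (rI N B z) + wt w (cJ N U z) - wt w (U z))

section cand

variable {N : V → Finset V} {w : V → ℝ} {B U : V → Finset V}

def Bs (N U : V → Finset V) (z : V) : Finset V := NS N (insert z (cA N U z))

def Us (N B : V → Finset V) (z : V) : Finset V := cA N (fun a => (NS N (B a)).erase a) z

def B1 (N B U : V → Finset V) (z : V) : Finset V := insert z ((Bs N U z).erase z ∩ Us N B z)

def U1 (N B U : V → Finset V) (z : V) : Finset V := Us N B z ∪ (Bs N U z).erase z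

lemma mem_Us {z b : V} : b ∈ Us N B z ↔ ∀ z' ∈ inN N z, b ≠ z' ∧ b ∈ NS N (B z') := by
  simp [Us, mem_cA]

lemma mem_Bs {z b : V} : b ∈ Bs N U z ↔ b ∈ N z ∨ ∃ x ∈ cA N U z, b ∈ N x := by
  simp [Bs, mem_NS]

variable (hself : ∀ a, a ∈ N a) (hanti : ∀ a b, b ∈ N a → a ∈ N b → a = b)
include hself hanti

/-- `EAU` is disjoint from the reversed arcs and from the diagonal -/
lemma EAU_not (hF : Feas N B U) {z b x : V} (hx : x ∈ cA N U z) (hb : b ∈ N x) : z ∉ N b := by
  intro h
  exact hF.hU b x hb (mem_cA.mp hx b (mem_inN.mpr h))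

lemma N_sub_Us (hF : Feas N B U) {z b : V} (hb : b ∈ N z) (hbz : b ≠ z) : b ∈ Us N B z := by
  rw [mem_Us]
  intro z' hz'
  rw [mem_inN] at hz'
  refine ⟨?_, mem_NS.mpr ⟨z, hF.hA z' hz', hb⟩⟩
  rintro rfl
  exact hbz (hanti _ _ hb hz').symm

lemma feas1 (hF : Feas N B U) : Feas N (B1 N B U) (U1 N B U) where
  hA := by
    intro z b hb
    rw [B1, mem_insert, mem_inter, mem_erase]
    by_cases hbz : b = z
    · exact Or.inl hbz
    · exact Or.inr ⟨⟨hbz, mem_Bs.mpr (Or.inl hb)⟩, N_sub_Us hself hanti hF hb hbz⟩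
  hU := by
    intro z b hz hb
    rw [U1, mem_union, mem_erase] at hb
    rcases hb with hb | ⟨hbz, hb⟩
    · exact (mem_Us.mp hb b (mem_inN.mpr hz)).1 rfl
    · rcases mem_Bs.mp hb with hb | ⟨x, hx, hb⟩
      · exact hbz (hanti _ _ hb hz).symm
      · exact EAU_not hself hanti hF hx hb hz
  hB := by
    intro a b hb hba
    rw [B1, mem_insert, mem_inter] at hb
    rcases hb with hb | hb
    · exact absurd hb hba
    · exact mem_union_left _ hb.2

lemma cost1 (hw : ∀ v, 0 ≤ w v) (hF : Feas N B U)
    (hR : ∀ z, ∀ T, T ⊆ gapR B U z → wt w T ≤ wt w (NS N T \ NS N (B z)))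
    (hC : ∀ x, ∀ T : Finset V, (∀ z ∈ T, x ∈ gapR B U z) →
      wt w T ≤ wt w ((NS N T).filter (fun z => x ∈ cA N U z))) :
    fi N w (B1 N B U) (U1 N B U) ≤ fo N w B U := by
  have hrow : ∀ z, wt w (B1 N B U z) - wt w (rI N (B1 N B U) z) + wt w (cJ N (U1 N B U) z) -
      wt w (U1 N B U z) ≤ (wt w (NS N (B z)) - wt w (B z) + wt w (U z) - wt w (cA N U z)) +
      (wt w (PR N B U z) + wt w (QR N B U z) - wt w (KR N B U z) - wt w (gapR B U z)) := by
    intro z
    have hzz : z ∈ inN N z := mem_inN.mpr (hself z)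
    have hzU : z ∉ U z := hF.hU z z (hself z)
    have hzB : z ∈ B z := hF.hA z (hself z)
    -- (1)
    have h1 : wt w (B1 N B U z) + wt w (KR N B U z) ≤ w z + wt w ((Bs N U z).erase z) := by
      have e : wt w (B1 N B U z) = w z + wt w ((Bs N U z).erase z ∩ Us N B z) := by
        rw [B1, wt, sum_insert (by simp)]; rfl
      have hK : KR N B U z ⊆ (Bs N U z).erase z \ Us N B z := by
        intro u hu
        rw [KR, mem_sdiff] at hu
        obtain ⟨x, hx, hxu⟩ := mem_NS.mp hu.1
        rw [mem_sdiff, mem_erase]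
        refine ⟨⟨?_, mem_Bs.mpr (Or.inr ⟨x, hx, hxu⟩)⟩, ?_⟩
        · rintro rfl
          exact EAU_not hself hanti hF hx hxu (hself _)
        · intro hc
          apply hu.2
          rw [mem_betaR]
          intro z' hz'
          exact (mem_Us.mp hc z' hz').2
      have h2 := wt_mono hw hK
      have h3 : wt w ((Bs N U z).erase z ∩ Us N B z) + wt w ((Bs N U z).erase z \ Us N B z) =
          wt w ((Bs N U z).erase z) := by
        rw [← wt_union_disj (disjoint_left.mpr (fun v hv hv2 =>
          (mem_sdiff.mp hv2).2 (mem_inter.mp hv).2)), union_comm, sdiff_union_inter]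
      linarith
    -- (2)
    have h2 : wt w ((Bs N U z).erase z) ≤ wt w (U1 N B U z) := wt_mono hw subset_union_right
    -- (3)
    have h3 : w z + wt w (cA N U z) ≤ wt w (rI N (B1 N B U) z) + wt w (PR N B U z) := by
      have hzc : z ∉ cA N U z := fun h => hzU (mem_cA.mp h z hzz)
      have hs : insert z (cA N U z \ PR N B U z) ⊆ rI N (B1 N B U) z := by
        intro x hx
        rw [mem_insert] at hx
        rw [mem_rI]
        rcases hx with rfl | hx
        · exact (feas1 hself hanti hF).hA _
        · rw [mem_sdiff] at hx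
          have hxB : ∀ z' ∈ inN N z, x ∈ B z' := by
            intro z' hz'
            by_contra hc
            exact hx.2 (mem_filter.mpr ⟨hx.1, z', hz', hc⟩)
          intro u hu
          rw [B1, mem_insert, mem_inter, mem_erase]
          right
          refine ⟨⟨?_, mem_Bs.mpr (Or.inr ⟨x, hx.1, hu⟩)⟩, ?_⟩
          · rintro rfl
            exact EAU_not hself hanti hF hx.1 hu (hself _)
          · rw [mem_Us]
            intro z' hz'
            refine ⟨?_, mem_NS.mpr ⟨x, hxB z' hz', hu⟩⟩
            rintro rfl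
            exact EAU_not hself hanti hF hx.1 hu (mem_inN.mp hz')
      have h4 := wt_mono hw hs
      have h5 : wt w (insert z (cA N U z \ PR N B U z)) = w z + wt w (cA N U z \ PR N B U z) := by
        rw [wt, sum_insert (by simp [hzc])]; rfl
      have h6 := wt_sdiff_add (w := w) (filter_subset (fun x => ∃ z' ∈ inN N z, x ∉ B z') (cA N U z))
      change wt w (cA N U z \ PR N B U z) + wt w (PR N B U z) = wt w (cA N U z) at h6
      linarith
    -- (4)
    have h4 : wt w (cJ N (U1 N B U) z) + w z ≤ wt w (NS N (B z)) + wt w (QR N B U z) := by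
      have hs : cJ N (U1 N B U) z ⊆ (NS N (B z)).erase z ∪ QR N B U z := by
        intro b hb0
        obtain ⟨y, hy, hb1⟩ := mem_cJ.mp hb0
        clear hb0
        rw [U1, mem_union, mem_erase] at hb1
        rw [mem_union, mem_erase]
        have hzy : z ∈ inN N y := mem_inN.mpr hy
        rcases hb1 with hb2 | ⟨hby, hb2⟩
        · exact Or.inl (mem_Us.mp hb2 z hzy)
        · rcases mem_Bs.mp hb2 with hb3 | ⟨x, hx, hb3⟩
          · left
            refine ⟨?_, mem_NS.mpr ⟨y, hF.hA z hy, hb3⟩⟩
            intro hbz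
            subst hbz
            exact hby (hanti _ _ hb3 hy).symm
          · have hxz : x ∈ U z := mem_cA.mp hx z hzy
            have hbz : b ≠ z := by
              intro hbz
              subst hbz
              exact hF.hU _ x hb3 hxz
            by_cases hc : b ∈ NS N (B z)
            · exact Or.inl ⟨hbz, hc⟩
            · exact Or.inr (mem_sdiff.mpr ⟨mem_NS.mpr ⟨x, hxz, hb3⟩, hc⟩)
      have h5 := (wt_mono hw hs).trans (wt_union_le hw _ _)
      have h6 : wt w ((NS N (B z)).erase z) + w z = wt w (NS N (B z)) :=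
        sum_erase_add _ _ (mem_NS.mpr ⟨z, hzB, hself z⟩)
      linarith
    -- (5)
    have h5 : wt w (U z) + w z = wt w (B z) + wt w (gapR B U z) := by
      have e : U z = (B z).erase z ∪ gapR B U z := by
        ext b
        rw [mem_union, mem_erase, gapR, mem_sdiff]
        constructor
        · intro hb
          by_cases hc : b ∈ B z
          · exact Or.inl ⟨fun h => hzU (h ▸ hb), hc⟩
          · exact Or.inr ⟨hb, hc⟩
        · rintro (h | h)
          · exact hF.hB z b h.2 h.1
          · exact h.1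
      have hd : Disjoint ((B z).erase z) (gapR B U z) := by
        rw [disjoint_left]
        intro b hb hb2
        exact (mem_sdiff.mp hb2).2 (mem_of_mem_erase hb)
      have h6 : wt w ((B z).erase z) + w z = wt w (B z) := sum_erase_add _ _ hzB
      have h7 : wt w (U z) = wt w ((B z).erase z) + wt w (gapR B U z) := by
        conv_lhs => rw [e]
        exact wt_union_disj hd
      linarith
    linarith
  have hst := star hw hR hC
  have hsum : fi N w (B1 N B U) (U1 N B U) ≤ fo N w B U +
      ∑ z, w z * (wt w (PR N B U z) + wt w (QR N B U z) - wt w (KR N B U z) -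
        wt w (gapR B U z)) := by
    rw [fi, fo, ← sum_add_distrib]
    refine sum_le_sum (fun z _ => ?_)
    have := mul_le_mul_of_nonneg_left (hrow z) (hw z)
    linarith
  have e : ∑ z, w z * (wt w (PR N B U z) + wt w (QR N B U z) - wt w (KR N B U z) -
        wt w (gapR B U z)) = ∑ z, w z * wt w (PR N B U z) + ∑ z, w z * wt w (QR N B U z) -
        ∑ z, w z * wt w (KR N B U z) - ∑ z, w z * wt w (gapR B U z) := by
    simp only [mul_sub, mul_add, sum_sub_distrib, sum_add_distrib]
  rw [e] at hsum
  linarith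

omit hself hanti in
lemma hR_of_min (hw : ∀ v, 0 < w v) (hF : Feas N B U)
    (hmin : ∀ B2 U2, Feas N B2 U2 → fo N w B U ≤ fo N w B2 U2) (z : V) (T : Finset V)
    (hT : T ⊆ gapR B U z) : wt w T ≤ wt w (NS N T \ NS N (B z)) := by
  have hw0 : ∀ v, 0 ≤ w v := fun v => (hw v).le
  set B2 : V → Finset V := fun a => if a = z then B z ∪ T else B a with hB2
  have hF2 : Feas N B2 U := by
    refine ⟨fun a => ?_, hF.hU, fun a b hb hba => ?_⟩
    · by_cases h : a = z
      · subst h; simp only [hB2, if_true]; exact (hF.hA _).trans subset_union_left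
      · simp only [hB2, h, if_false]; exact hF.hA a
    · by_cases h : a = z
      · subst h
        simp only [hB2, if_true, mem_union] at hb
        rcases hb with hb | hb
        · exact hF.hB _ _ hb hba
        · exact (mem_sdiff.mp (hT hb)).1
      · simp only [hB2, h, if_false] at hb; exact hF.hB _ _ hb hba
  have h := hmin B2 U hF2
  rw [fo, fo, ← add_sum_erase _ _ (mem_univ z), ← add_sum_erase univ _ (mem_univ z)] at h
  have e : ∑ x ∈ univ.erase z, w x * (wt w (NS N (B2 x)) - wt w (B2 x) + wt w (U x) -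
      wt w (cA N U x)) = ∑ x ∈ univ.erase z, w x * (wt w (NS N (B x)) - wt w (B x) + wt w (U x) -
      wt w (cA N U x)) := by
    refine sum_congr rfl (fun x hx => ?_)
    have hxz : x ≠ z := ne_of_mem_erase hx
    simp only [hB2, hxz, if_false]
  rw [e] at h
  simp only [hB2, if_true] at h
  have h1 : w z * (wt w (NS N (B z)) - wt w (B z)) ≤
      w z * (wt w (NS N (B z ∪ T)) - wt w (B z ∪ T)) := by linarith
  have h2 := le_of_mul_le_mul_left h1 (hw z)
  have h3 : wt w (B z ∪ T) = wt w (B z) + wt w T := wt_union_disj (by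
    rw [disjoint_left]; intro v hv hv2; exact (mem_sdiff.mp (hT hv2)).2 hv)
  have h4 : NS N (B z ∪ T) = NS N (B z) ∪ (NS N T \ NS N (B z)) := by
    rw [union_sdiff_self_eq_union]; simp [NS, union_biUnion]
  have h5 : wt w (NS N (B z ∪ T)) = wt w (NS N (B z)) + wt w (NS N T \ NS N (B z)) := by
    rw [h4]; exact wt_union_disj disjoint_sdiff
  linarith

omit hself hanti in
lemma hC_of_min (hw : ∀ v, 0 < w v) (hF : Feas N B U)
    (hmin : ∀ B2 U2, Feas N B2 U2 → fo N w B U ≤ fo N w B2 U2) (x : V) (T : Finset V)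
    (hT : ∀ z ∈ T, x ∈ gapR B U z) :
      wt w T ≤ wt w ((NS N T).filter (fun z => x ∈ cA N U z)) := by
  set U2 : V → Finset V := fun a => if a ∈ T then (U a).erase x else U a with hU2
  have hsub : ∀ a, U2 a ⊆ U a := fun a => by
    by_cases h : a ∈ T
    · simp only [hU2, h, if_true]; exact erase_subset _ _
    · simp only [hU2, h, if_false]; exact Subset.refl _
  have hF2 : Feas N B U2 := by
    refine ⟨hF.hA, fun z b hz hb => hF.hU z b hz (hsub z hb), fun a b hb hba => ?_⟩
    have h1 := hF.hB a b hb hba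
    by_cases h : a ∈ T
    · simp only [hU2, h, if_true, mem_erase]
      refine ⟨?_, h1⟩
      rintro rfl
      exact (mem_sdiff.mp (hT a h)).2 hb
    · simp only [hU2, h, if_false]; exact h1
  have h := hmin B U2 hF2
  have e1 : ∀ a, wt w (U2 a) = wt w (U a) - (if a ∈ T then w x else 0) := by
    intro a
    by_cases h : a ∈ T
    · simp only [hU2, h, if_true]
      have := sum_erase_add (U a) w (mem_sdiff.mp (hT a h)).1
      rw [wt, wt]; linarith
    · simp only [hU2, h, if_false, sub_zero]
  have e2 : ∀ a, wt w (cA N U2 a) = wt w (cA N U a) -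
      (if a ∈ (NS N T).filter (fun z => x ∈ cA N U z) then w x else 0) := by
    intro a
    by_cases h : a ∈ (NS N T).filter (fun z => x ∈ cA N U z)
    · obtain ⟨h1, h2⟩ := mem_filter.mp h
      have : cA N U2 a = (cA N U a).erase x := by
        ext b
        rw [mem_erase, mem_cA, mem_cA]
        constructor
        · intro hb
          refine ⟨?_, fun z' hz' => hsub z' (hb z' hz')⟩
          rintro rfl
          obtain ⟨z', hz', hzz⟩ := mem_NS.mp h1
          have := hb z' (mem_inN.mpr hzz)
          simp [hU2, hz'] at this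
        · rintro ⟨hbx, hb⟩ z' hz'
          have := hb z' hz'
          by_cases h3 : z' ∈ T
          · simp only [hU2, h3, if_true, mem_erase]; exact ⟨hbx, this⟩
          · simp only [hU2, h3, if_false]; exact this
      rw [this, if_pos h]
      have := sum_erase_add (cA N U a) w h2
      rw [wt, wt]; linarith
    · have : cA N U2 a = cA N U a := by
        ext b
        rw [mem_cA, mem_cA]
        constructor
        · intro hb z' hz'; exact hsub z' (hb z' hz')
        · intro hb z' hz'
          have h4 := hb z' hz'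
          by_cases h3 : z' ∈ T
          · simp only [hU2, h3, if_true, mem_erase]
            refine ⟨?_, h4⟩
            rintro rfl
            exact h (mem_filter.mpr ⟨mem_NS.mpr ⟨z', h3, mem_inN.mp hz'⟩, mem_cA.mpr hb⟩)
          · simp only [hU2, h3, if_false]; exact h4
      rw [this, if_neg h]; ring
  have h1 : 0 ≤ ∑ a, w a * ((if a ∈ (NS N T).filter (fun z => x ∈ cA N U z) then w x else 0) -
      (if a ∈ T then w x else 0)) := by
    have h2 : fo N w B U2 - fo N w B U =
      ∑ a, w a * ((if a ∈ (NS N T).filter (fun z => x ∈ cA N U z) then w x else 0) -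
      (if a ∈ T then w x else 0)) := by
      rw [fo, fo, ← sum_sub_distrib]
      refine sum_congr rfl (fun a _ => ?_)
      rw [e1, e2]; ring
    rw [← h2]; linarith
  have e3 : ∀ S : Finset V, ∑ a, w a * (if a ∈ S then w x else 0) = w x * wt w S := by
    intro S
    rw [wt_eq_sum_ite, mul_sum]
    refine sum_congr rfl (fun a _ => ?_)
    split_ifs <;> ring
  simp only [mul_sub, sum_sub_distrib] at h1
  rw [e3, e3] at h1
  have h2 : w x * wt w T ≤ w x * wt w ((NS N T).filter (fun z => x ∈ cA N U z)) := by linarith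
  exact le_of_mul_le_mul_left h2 (hw x)

/-- existence of a minimiser of the outer cost -/
lemma exists_min_fo : ∃ B U, Feas N B U ∧ ∀ B2 U2, Feas N B2 U2 → fo N w B U ≤ fo N w B2 U2 := by
  classical
  have hne : ((univ : Finset ((V → Finset V) × (V → Finset V))).filter
      (fun p => Feas N p.1 p.2)).Nonempty := by
    refine ⟨(N, fun z => univ.filter (fun b => z ∉ N b)), ?_⟩
    simp only [mem_filter, mem_univ, true_and]
    refine ⟨fun a => Subset.refl _, fun z b hz hb => ?_, fun a b hb hba => ?_⟩
    · exact (mem_filter.mp hb).2 hz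
    · exact mem_filter.mpr ⟨mem_univ _, fun h => hba (hanti _ _ hb h).symm⟩
  obtain ⟨p, hp, hmin⟩ := exists_min_image _ (fun p => fo N w p.1 p.2) hne
  refine ⟨p.1, p.2, (mem_filter.mp hp).2, fun B2 U2 h2 => ?_⟩
  exact hmin (B2, U2) (mem_filter.mpr ⟨mem_univ _, h2⟩)

/-- **INOUT** -/
theorem inout (hw : ∀ v, 0 < w v) : ∃ B' U', Feas N B' U' ∧
    ∀ B2 U2, Feas N B2 U2 → fi N w B' U' ≤ fo N w B2 U2 := by
  obtain ⟨B, U, hF, hmin⟩ := exists_min_fo (w := w) hself hanti
  refine ⟨B1 N B U, U1 N B U, feas1 hself hanti hF, fun B2 U2 h2 => ?_⟩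
  exact (cost1 hself hanti (fun v => (hw v).le) hF (hR_of_min hw hF hmin)
    (hC_of_min hw hF hmin)).trans (hmin B2 U2 h2)

end cand

end Vale.Agent.P038.H597
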