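import Mathlib

/-!
# P038: the comparison of two min cuts (INOUT)

Independent copy (helper597) of helper357's proof (note 22687).
`N a` is the closed out-neighbourhood of `a`.
-/

set_option linter.unusedSectionVars false

namespace Vale.Agent.P038.H597

open Finset

variable {V : Type*} [Fintype V] [DecidableEq V]

/-- weight of a set -/
def wt (w : V → ℝ) (S : Finset V) : ℝ := ∑ x ∈ S, w x

/-- closed out-neighbourhood of a set -/
def NS (N : V → Finset V) (S : Finset V) : Finset V := S.biUnion N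

/-- closed in-neighbourhood of a vertex -/
def inN (N : V → Finset V) (z : V) : Finset V := univ.filter (fun z' => z ∈ N z')

/-- column erosion -/
def cA (N : V → Finset V) (U : V → Finset V) (z : V) : Finset V :=
  univ.filter (fun b => ∀ z' ∈ inN N z, b ∈ U z')

/-- row erosion -/
def rI (N : V → Finset V) (B : V → Finset V) (a : V) : Finset V :=
  univ.filter (fun x => N x ⊆ B a)

/-- column dilation -/
def cJ (N : V → Finset V) (U : V → Finset V) (x : V) : Finset V :=
  (N x).biUnion U

section basic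
variable {w : V → ℝ}

lemma wt_mono (hw : ∀ v, 0 ≤ w v) {S T : Finset V} (h : S ⊆ T) : wt w S ≤ wt w T :=
  sum_le_sum_of_subset_of_nonneg h (fun i _ _ => hw i)

lemma wt_nonneg (hw : ∀ v, 0 ≤ w v) (S : Finset V) : 0 ≤ wt w S := sum_nonneg (fun i _ => hw i)

lemma wt_union_disj {S T : Finset V} (h : Disjoint S T) : wt w (S ∪ T) = wt w S + wt w T :=
  sum_union h

lemma wt_sdiff_add {S T : Finset V} (h : T ⊆ S) : wt w (S \ T) + wt w T = wt w S :=
  sum_sdiff h

lemma wt_union_inter (S T : Finset V) : wt w (S ∪ T) + wt w (S ∩ T) = wt w S + wt w T :=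
  sum_union_inter

lemma wt_union_le (hw : ∀ v, 0 ≤ w v) (S T : Finset V) : wt w (S ∪ T) ≤ wt w S + wt w T := by
  have := wt_union_inter (w := w) S T
  have h2 := wt_nonneg hw (S ∩ T)
  linarith

lemma wt_eq_sum_ite (S : Finset V) : wt w S = ∑ v, if v ∈ S then w v else 0 := by
  simp [wt, Finset.sum_ite_mem]

@[simp] lemma wt_empty : wt w (∅ : Finset V) = 0 := by simp [wt]

@[simp] lemma wt_singleton (a : V) : wt w ({a} : Finset V) = w a := by simp [wt]

lemma mem_NS {N : V → Finset V} {S : Finset V} {u : V} : u ∈ NS N S ↔ ∃ x ∈ S, u ∈ N x := by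
  simp [NS]

lemma NS_mono {N : V → Finset V} {S T : Finset V} (h : S ⊆ T) : NS N S ⊆ NS N T :=
  biUnion_subset_biUnion_of_subset_left _ h

lemma mem_inN {N : V → Finset V} {z z' : V} : z' ∈ inN N z ↔ z ∈ N z' := by simp [inN]

lemma mem_cA {N U : V → Finset V} {z b : V} : b ∈ cA N U z ↔ ∀ z' ∈ inN N z, b ∈ U z' := by
  simp [cA]

lemma mem_rI {N B : V → Finset V} {a x : V} : x ∈ rI N B a ↔ N x ⊆ B a := by
  simp [rI]

lemma mem_cJ {N U : V → Finset V} {x b : V} : b ∈ cJ N U x ↔ ∃ y ∈ N x, b ∈ U y := by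
  simp [cJ]

end basic

section layer

/-- the finite layer cake inequality -/
lemma layer_cake {w : V → ℝ} (hw : ∀ v, 0 ≤ w v) (A C : Finset V) :
    ∀ (n : ℕ) (f g : V → ℝ), (A.filter (fun v => 0 < f v)).card = n →
      (∀ v ∈ A, 0 ≤ f v) → (∀ v ∈ C, 0 ≤ g v) →
      (∀ s : ℝ, 0 < s → wt w (A.filter (fun v => s ≤ f v)) ≤ wt w (C.filter (fun v => s ≤ g v))) →
      ∑ v ∈ A, w v * f v ≤ ∑ v ∈ C, w v * g v := by
  intro n
  induction n using Nat.strong_induction_on with
  | _ n ih =>
    intro f g hn hf hg h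
    rcases (A.filter (fun v => 0 < f v)).eq_empty_or_nonempty with he | hne
    · have h0 : ∑ v ∈ A, w v * f v = 0 := by
        refine sum_eq_zero (fun v hv => ?_)
        have : ¬ 0 < f v := fun hc => by
          have : v ∈ A.filter (fun v => 0 < f v) := by simp [hv, hc]
          rw [he] at this; simp at this
        have : f v = 0 := le_antisymm (not_lt.mp this) (hf v hv)
        simp [this]
      rw [h0]
      exact sum_nonneg (fun v hv => mul_nonneg (hw v) (hg v hv))
    · obtain ⟨v0, hv0, hmin⟩ := exists_min_image _ f hne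
      set m := f v0 with hm
      have hv0' := mem_filter.mp hv0
      have hmpos : 0 < m := hv0'.2
      have hA : ∀ v ∈ A, 0 < f v → m ≤ f v := fun v hv hp => hmin v (by simp [hv, hp])
      set f1 : V → ℝ := fun v => max (f v - m) 0 with hf1
      set g1 : V → ℝ := fun v => max (g v - m) 0 with hg1
      have hcard : (A.filter (fun v => 0 < f1 v)).card < n := by
        rw [← hn]
        apply card_lt_card
        refine ⟨?_, ?_⟩
        · intro v hv
          simp only [mem_filter, hf1, lt_max_iff, lt_self_iff_false, or_false] at hv ⊢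
          exact ⟨hv.1, by linarith [hv.2]⟩
        · intro hsub
          have := hsub hv0
          simp [hf1, ← hm] at this
      have key := ih _ hcard f1 g1 rfl (fun v _ => le_max_right _ _) (fun v _ => le_max_right _ _)
        (by
          intro s hs
          have e1 : A.filter (fun v => s ≤ f1 v) = A.filter (fun v => s + m ≤ f v) := by
            apply filter_congr
            intro v _
            simp only [hf1, le_max_iff]
            constructor
            · rintro (h1 | h1) <;> linarith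
            · intro h1; left; linarith
          have e2 : C.filter (fun v => s ≤ g1 v) = C.filter (fun v => s + m ≤ g v) := by
            apply filter_congr
            intro v _
            simp only [hg1, le_max_iff]
            constructor
            · rintro (h1 | h1) <;> linarith
            · intro h1; left; linarith
          rw [e1, e2]
          exact h (s + m) (by linarith))
      -- decompose
      have hfd : ∑ v ∈ A, w v * f v = ∑ v ∈ A, w v * f1 v + m * wt w (A.filter (fun v => m ≤ f v)) := by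
        rw [wt, sum_filter, mul_sum, ← sum_add_distrib]
        refine sum_congr rfl (fun v hv => ?_)
        by_cases hp : 0 < f v
        · have := hA v hv hp
          simp only [hf1, this, if_true]
          rw [max_eq_left (by linarith)]; ring
        · have h0 : f v = 0 := le_antisymm (not_lt.mp hp) (hf v hv)
          have : ¬ m ≤ f v := by rw [h0]; linarith
          simp only [hf1, this, if_false]
          rw [h0, max_eq_right (by linarith)]; ring
      have hgd : ∑ v ∈ C, w v * g1 v + m * wt w (C.filter (fun v => m ≤ g v)) ≤ ∑ v ∈ C, w v * g v := by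
        rw [wt, sum_filter, mul_sum, ← sum_add_distrib]
        refine sum_le_sum (fun v hv => ?_)
        by_cases hp : m ≤ g v
        · simp only [hg1, hp, if_true]
          rw [max_eq_left (by linarith)]; nlinarith [hw v]
        · simp only [hg1, hp, if_false]
          rw [max_eq_right (by linarith)]
          have := mul_nonneg (hw v) (hg v hv)
          linarith
      have hmm := mul_le_mul_of_nonneg_left (h m hmpos) hmpos.le
      linarith

end layer

section mm

variable (N : V → Finset V) (w : V → ℝ)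

/-- gain function -/
def gain (β W T : Finset V) : ℝ := wt w T - wt w ((NS N T \ β) \ W)

/-- the maximal gain -/
noncomputable def mm (S β W : Finset V) : ℝ :=
  S.powerset.sup' ⟨∅, by simp⟩ (gain N w β W)

variable {N w}

lemma le_mm {S β W T : Finset V} (hT : T ⊆ S) : gain N w β W T ≤ mm N w S β W :=
  le_sup' (gain N w β W) (mem_powerset.mpr hT)

lemma exists_mm (S β W : Finset V) : ∃ T, T ⊆ S ∧ mm N w S β W = gain N w β W T := by
  obtain ⟨T, hT, h⟩ := exists_mem_eq_sup' (s := S.powerset) ⟨∅, by simp⟩ (gain N w β W)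
  exact ⟨T, mem_powerset.mp hT, h⟩

lemma mm_nonneg (S β W : Finset V) : 0 ≤ mm N w S β W := by
  have := le_mm (N := N) (w := w) (S := S) (β := β) (W := W) (T := ∅) (empty_subset _)
  simpa [gain, NS] using this

lemma mm_univ (hw : ∀ v, 0 ≤ w v) (S β : Finset V) : mm N w S β univ = wt w S := by
  apply le_antisymm
  · obtain ⟨T, hT, h⟩ := exists_mm (N := N) (w := w) S β univ
    rw [h, gain]
    have h1 := wt_mono hw hT
    have h2 := wt_nonneg hw ((NS N T \ β) \ univ)
    linarith
  · have := le_mm (N := N) (w := w) (S := S) (β := β) (W := univ) (T := S) (Subset.refl _)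
    have h0 : (NS N S \ β) \ univ = ∅ := by ext v; simp
    rw [gain, h0, wt_empty] at this
    linarith

lemma mm_empty_le (S β : Finset V) (hall : ∀ T, T ⊆ S → wt w T ≤ wt w (NS N T \ β)) :
    mm N w S β ∅ ≤ 0 := by
  obtain ⟨T, hT, h⟩ := exists_mm (N := N) (w := w) S β ∅
  rw [h, gain]
  have := hall T hT
  simp only [sdiff_empty]
  linarith

lemma mm_mono (hw : ∀ v, 0 ≤ w v) (S β : Finset V) {W W' : Finset V} (h : W ⊆ W') :
    mm N w S β W ≤ mm N w S β W' := by
  obtain ⟨T, hT, he⟩ := exists_mm (N := N) (w := w) S β W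
  rw [he]
  refine le_trans ?_ (le_mm hT)
  have := wt_mono hw (sdiff_subset_sdiff (Subset.refl (NS N T \ β)) h)
  simp only [gain]; linarith

/-- adding one point increases `mm` by at most its weight -/
lemma mm_insert_le (hw : ∀ v, 0 ≤ w v) (S β W : Finset V) (u : V) :
    mm N w S β (insert u W) ≤ mm N w S β W + w u := by
  obtain ⟨T, hT, he⟩ := exists_mm (N := N) (w := w) S β (insert u W)
  rw [he]
  have h1 := le_mm (N := N) (w := w) (S := S) (β := β) (W := W) hT
  have h2 : wt w ((NS N T \ β) \ W) ≤ wt w ((NS N T \ β) \ insert u W) + w u := by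
    have hs : (NS N T \ β) \ W ⊆ ((NS N T \ β) \ insert u W) ∪ {u} := by
      intro v hv
      simp only [mem_sdiff, mem_union, mem_singleton, mem_insert] at hv ⊢
      tauto
    have := wt_mono hw hs
    have h3 := wt_union_le hw ((NS N T \ β) \ insert u W) {u}
    simp only [wt_singleton] at h3
    linarith
  simp only [gain] at h1 ⊢
  linarith

/-- points outside `N[S] \ β` do not change `mm` -/
lemma mm_insert_eq (hw : ∀ v, 0 ≤ w v) (S β W : Finset V) (u : V) (hu : u ∉ NS N S \ β) :
    mm N w S β (insert u W) ≤ mm N w S β W := by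
  obtain ⟨T, hT, he⟩ := exists_mm (N := N) (w := w) S β (insert u W)
  rw [he]
  have h1 := le_mm (N := N) (w := w) (S := S) (β := β) (W := W) hT
  have h2 : (NS N T \ β) \ W = (NS N T \ β) \ insert u W := by
    ext v
    simp only [mem_sdiff, mem_insert, not_or]
    constructor
    · rintro ⟨⟨h3, h4⟩, h5⟩
      refine ⟨⟨h3, h4⟩, ?_, h5⟩
      rintro rfl
      exact hu (mem_sdiff.mpr ⟨NS_mono hT h3, h4⟩)
    · rintro ⟨h3, _, h5⟩; exact ⟨h3, h5⟩
  simp only [gain] at h1 ⊢
  rw [h2] at h1
  linarith

end mm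

section star

variable {N : V → Finset V} {w : V → ℝ} {B U : V → Finset V}

/-- the rows of the objects in (★) -/
def gapR (B U : V → Finset V) (z : V) : Finset V := U z \ B z

def PR (N B U : V → Finset V) (z : V) : Finset V :=
  (cA N U z).filter (fun x => ∃ z' ∈ inN N z, x ∉ B z')

def betaR (N B : V → Finset V) (z : V) : Finset V :=
  univ.filter (fun u => ∀ z' ∈ inN N z, u ∈ NS N (B z'))

def KR (N B U : V → Finset V) (z : V) : Finset V := NS N (cA N U z) \ betaR N B z

def QR (N B U : V → Finset V) (z : V) : Finset V := NS N (U z) \ NS N (B z)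

lemma mem_betaR {z u : V} : u ∈ betaR N B z ↔ ∀ z' ∈ inN N z, u ∈ NS N (B z') := by
  simp [betaR]

/-- (a), general form -/
lemma hall_a_aux (hw : ∀ v, 0 ≤ w v)
    (hR : ∀ z, ∀ T, T ⊆ gapR B U z → wt w T ≤ wt w (NS N T \ NS N (B z))) (L : Finset V) :
    ∀ T : Finset V, (∀ z' ∈ L, T ⊆ U z') →
      wt w (T \ univ.filter (fun x => ∀ z' ∈ L, x ∈ B z')) ≤
        wt w (NS N T \ univ.filter (fun u => ∀ z' ∈ L, u ∈ NS N (B z'))) := by
  induction L using Finset.induction_on with
  | empty =>
    intro T _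
    have h1 : T \ univ.filter (fun x => ∀ z' ∈ (∅ : Finset V), x ∈ B z') = ∅ := by ext v; simp
    rw [h1, wt_empty]
    exact wt_nonneg hw _
  | insert z' L hz' ih =>
    intro T hT
    have hTL : ∀ y ∈ L, T ⊆ U y := fun y hy => hT y (mem_insert_of_mem hy)
    have h1 := ih T hTL
    set T2 := T.filter (fun x => ∀ y ∈ L, x ∈ B y) with hT2
    have h2 := hR z' (T2 \ B z') (by
      intro x hx
      rw [mem_sdiff] at hx
      exact mem_sdiff.mpr ⟨hT z' (mem_insert_self _ _) (mem_filter.mp hx.1).1, hx.2⟩)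
    have e1 : T \ univ.filter (fun x => ∀ y ∈ insert z' L, x ∈ B y) ⊆
        (T \ univ.filter (fun x => ∀ y ∈ L, x ∈ B y)) ∪ (T2 \ B z') := by
      intro x hx
      simp only [mem_sdiff, mem_filter, mem_univ, true_and, mem_insert, forall_eq_or_imp,
        mem_union, hT2] at hx ⊢
      tauto
    have e2 : (NS N T \ univ.filter (fun u => ∀ y ∈ L, u ∈ NS N (B y))) ∪
        (NS N (T2 \ B z') \ NS N (B z')) ⊆
        NS N T \ univ.filter (fun u => ∀ y ∈ insert z' L, u ∈ NS N (B y)) := by
      intro u hu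
      rw [mem_union] at hu
      rcases hu with hu | hu
      · simp only [mem_sdiff, mem_filter, mem_univ, true_and, mem_insert, forall_eq_or_imp] at hu ⊢
        tauto
      · rw [mem_sdiff] at hu
        rw [mem_sdiff]
        refine ⟨NS_mono (sdiff_subset.trans (filter_subset _ _)) hu.1, ?_⟩
        intro hc
        exact hu.2 ((mem_filter.mp hc).2 z' (mem_insert_self _ _))
    have hd : Disjoint (NS N T \ univ.filter (fun u => ∀ y ∈ L, u ∈ NS N (B y)))
        (NS N (T2 \ B z') \ NS N (B z')) := by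
      rw [disjoint_left]
      intro u hu hu2
      rw [mem_sdiff] at hu hu2
      apply hu.2
      obtain ⟨x, hx, hxu⟩ := mem_NS.mp hu2.1
      simp only [mem_filter, mem_univ, true_and]
      intro y hy
      exact mem_NS.mpr ⟨x, (mem_filter.mp (mem_sdiff.mp hx).1).2 y hy, hxu⟩
    calc wt w (T \ univ.filter (fun x => ∀ y ∈ insert z' L, x ∈ B y))
        ≤ wt w ((T \ univ.filter (fun x => ∀ y ∈ L, x ∈ B y)) ∪ (T2 \ B z')) := wt_mono hw e1
      _ ≤ _ := wt_union_le hw _ _
      _ ≤ wt w (NS N T \ univ.filter (fun u => ∀ y ∈ L, u ∈ NS N (B y))) +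
          wt w (NS N (T2 \ B z') \ NS N (B z')) := add_le_add h1 h2
      _ = _ := (wt_union_disj hd).symm
      _ ≤ _ := wt_mono hw e2

lemma hall_a (hw : ∀ v, 0 ≤ w v)
    (hR : ∀ z, ∀ T, T ⊆ gapR B U z → wt w T ≤ wt w (NS N T \ NS N (B z))) (z : V) (T : Finset V)
    (hT : T ⊆ PR N B U z) : wt w T ≤ wt w (NS N T \ betaR N B z) := by
  have h := hall_a_aux (N := N) hw hR (inN N z) T (by
    intro z' hz' x hx
    exact mem_cA.mp (mem_filter.mp (hT hx)).1 z' hz')
  have e : T \ univ.filter (fun x => ∀ z' ∈ inN N z, x ∈ B z') = T := by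
    apply sdiff_eq_self_of_disjoint
    rw [disjoint_left]
    intro x hx hc
    obtain ⟨z', h1, h2⟩ := (mem_filter.mp (hT hx)).2
    exact h2 ((mem_filter.mp hc).2 z' h1)
  rw [e] at h
  exact h

/-- (b), general form -/
lemma hall_b_aux (hw : ∀ v, 0 ≤ w v)
    (hC : ∀ x, ∀ T : Finset V, (∀ z ∈ T, x ∈ gapR B U z) →
      wt w T ≤ wt w ((NS N T).filter (fun z => x ∈ cA N U z)))
    (u : V) (T : Finset V) (hT : ∀ z ∈ T, u ∉ NS N (B z)) (L : Finset V) (hL : L ⊆ inN N u) :
      wt w (T.filter (fun z => ∃ x ∈ L, x ∈ U z)) ≤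
        wt w ((NS N T).filter (fun z => ∃ x ∈ L, x ∈ cA N U z)) := by
  induction L using Finset.induction_on with
  | empty => simp
  | insert x L hx ih =>
    have h1 := ih (fun y hy => hL (mem_insert_of_mem hy))
    set Tn := T.filter (fun z => x ∈ U z ∧ ∀ y ∈ L, y ∉ U z) with hTn
    have h2 := hC x Tn (by
      intro z hz
      obtain ⟨hz1, hz2, _⟩ := mem_filter.mp hz
      refine mem_sdiff.mpr ⟨hz2, fun hb => hT z hz1 ?_⟩
      exact mem_NS.mpr ⟨x, hb, mem_inN.mp (hL (mem_insert_self _ _))⟩)
    have e1 : T.filter (fun z => ∃ y ∈ insert x L, y ∈ U z) ⊆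
        T.filter (fun z => ∃ y ∈ L, y ∈ U z) ∪ Tn := by
      intro z hz
      simp only [mem_filter, mem_insert, exists_eq_or_imp, mem_union, hTn] at hz ⊢
      by_cases hq : ∃ y ∈ L, y ∈ U z
      · exact Or.inl ⟨hz.1, hq⟩
      · right
        refine ⟨hz.1, ?_, fun y hy hc => hq ⟨y, hy, hc⟩⟩
        rcases hz.2 with h | h
        · exact h
        · exact absurd h hq
    have hd : Disjoint ((NS N T).filter (fun z => ∃ y ∈ L, y ∈ cA N U z))
        ((NS N Tn).filter (fun z => x ∈ cA N U z)) := by
      rw [disjoint_left]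
      intro z hz hz2
      obtain ⟨_, y, hy, hyz⟩ := mem_filter.mp hz
      obtain ⟨hz3, _⟩ := mem_filter.mp hz2
      obtain ⟨z', hz', hzz⟩ := mem_NS.mp hz3
      exact (mem_filter.mp hz').2.2 y hy (mem_cA.mp hyz z' (mem_inN.mpr hzz))
    have e2 : ((NS N T).filter (fun z => ∃ y ∈ L, y ∈ cA N U z)) ∪
        ((NS N Tn).filter (fun z => x ∈ cA N U z)) ⊆
        (NS N T).filter (fun z => ∃ y ∈ insert x L, y ∈ cA N U z) := by
      intro z hz
      rw [mem_union] at hz
      rcases hz with hz | hz
      · obtain ⟨h3, y, hy, h4⟩ := mem_filter.mp hz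
        exact mem_filter.mpr ⟨h3, y, mem_insert_of_mem hy, h4⟩
      · obtain ⟨h3, h4⟩ := mem_filter.mp hz
        exact mem_filter.mpr ⟨NS_mono (filter_subset _ _) h3, x, mem_insert_self _ _, h4⟩
    calc wt w (T.filter (fun z => ∃ y ∈ insert x L, y ∈ U z))
        ≤ wt w (T.filter (fun z => ∃ y ∈ L, y ∈ U z) ∪ Tn) := wt_mono hw e1
      _ ≤ _ := wt_union_le hw _ _
      _ ≤ _ := add_le_add h1 h2
      _ = _ := (wt_union_disj hd).symm
      _ ≤ _ := wt_mono hw e2

lemma hall_b (hw : ∀ v, 0 ≤ w v)
    (hC : ∀ x, ∀ T : Finset V, (∀ z ∈ T, x ∈ gapR B U z) →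
      wt w T ≤ wt w ((NS N T).filter (fun z => x ∈ cA N U z)))
    (u : V) (T : Finset V) (hT : ∀ z ∈ T, u ∈ QR N B U z) :
      wt w T ≤ wt w ((NS N T).filter (fun z => u ∈ KR N B U z)) := by
  have hT' : ∀ z ∈ T, u ∉ NS N (B z) := fun z hz => (mem_sdiff.mp (hT z hz)).2
  have h := hall_b_aux (N := N) hw hC u T hT' (inN N u) (Subset.refl _)
  have e : T.filter (fun z => ∃ x ∈ inN N u, x ∈ U z) = T := by
    apply filter_true_of_mem
    intro z hz
    obtain ⟨x, hx, hxu⟩ := mem_NS.mp (mem_sdiff.mp (hT z hz)).1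
    exact ⟨x, mem_inN.mpr hxu, hx⟩
  rw [e] at h
  refine h.trans (wt_mono hw ?_)
  intro z hz
  obtain ⟨h1, x, hx, h2⟩ := mem_filter.mp hz
  refine mem_filter.mpr ⟨h1, mem_sdiff.mpr ⟨mem_NS.mpr ⟨x, h2, mem_inN.mp hx⟩, ?_⟩⟩
  intro hb
  obtain ⟨z', hz', hzz⟩ := mem_NS.mp h1
  exact hT' z' hz' (mem_betaR.mp hb z' (mem_inN.mpr hzz))

/-- (M) -/
lemma mm_exchange (hw : ∀ v, 0 ≤ w v) {z z' u : V} {W : Finset V} (hz : z' ∈ inN N z)
    (hu : u ∉ NS N (B z')) (huW : u ∉ W) :
    mm N w (PR N B U z) (betaR N B z) (insert u W) + mm N w (gapR B U z') (NS N (B z')) W ≤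
      mm N w (PR N B U z) (betaR N B z) W + mm N w (gapR B U z') (NS N (B z')) (insert u W) := by
  obtain ⟨T, hT, h1⟩ := exists_mm (N := N) (w := w) (PR N B U z) (betaR N B z) (insert u W)
  obtain ⟨T', hT', h2⟩ := exists_mm (N := N) (w := w) (gapR B U z') (NS N (B z')) W
  rw [h1, h2]
  have hT1 : (T ∩ B z') ∪ (T ∩ T') ⊆ PR N B U z := by
    intro x hx
    simp only [mem_union, mem_inter] at hx
    rcases hx with hx | hx <;> exact hT hx.1
  have hT2 : T' ∪ (T \ B z') ⊆ gapR B U z' := by
    intro x hx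
    rw [mem_union, mem_sdiff] at hx
    rcases hx with hx | hx
    · exact hT' hx
    · exact mem_sdiff.mpr ⟨mem_cA.mp (mem_filter.mp (hT hx.1)).1 z' hz, hx.2⟩
  have g1 := le_mm (N := N) (w := w) (β := betaR N B z) (W := W) hT1
  have g2 := le_mm (N := N) (w := w) (β := NS N (B z')) (W := insert u W) hT2
  have hT'B : ∀ x ∈ T', x ∉ B z' := fun x hx => (mem_sdiff.mp (hT' hx)).2
  -- weights
  have hwts : wt w ((T ∩ B z') ∪ (T ∩ T')) + wt w (T' ∪ (T \ B z')) = wt w T + wt w T' := by
    simp only [wt_eq_sum_ite, ← sum_add_distrib]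
    refine sum_congr rfl (fun x _ => ?_)
    have hx := hT'B x
    simp only [mem_union, mem_inter, mem_sdiff]
    by_cases a1 : x ∈ T <;> by_cases a2 : x ∈ T' <;> by_cases a3 : x ∈ B z' <;> simp_all
  -- costs
  have hcost : wt w ((NS N ((T ∩ B z') ∪ (T ∩ T')) \ betaR N B z) \ W) +
      wt w ((NS N (T' ∪ (T \ B z')) \ NS N (B z')) \ insert u W) ≤
      wt w ((NS N T \ betaR N B z) \ insert u W) + wt w ((NS N T' \ NS N (B z')) \ W) := by
    simp only [wt_eq_sum_ite, ← sum_add_distrib]
    refine sum_le_sum (fun v _ => ?_)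
    have f1 : v ∈ NS N ((T ∩ B z') ∪ (T ∩ T')) → v ∈ NS N T := fun h =>
      NS_mono (by intro x hx; simp only [mem_union, mem_inter] at hx; tauto) h
    have f2 : v ∉ NS N (B z') → v ∈ NS N ((T ∩ B z') ∪ (T ∩ T')) → v ∈ NS N T ∧ v ∈ NS N T' := by
      intro hv h
      obtain ⟨x, hx, hxv⟩ := mem_NS.mp h
      simp only [mem_union, mem_inter] at hx
      rcases hx with hx | hx
      · exact absurd (mem_NS.mpr ⟨x, hx.2, hxv⟩) hv
      · exact ⟨mem_NS.mpr ⟨x, hx.1, hxv⟩, mem_NS.mpr ⟨x, hx.2, hxv⟩⟩
    have f3 : v ∈ NS N (T' ∪ (T \ B z')) → v ∈ NS N T ∨ v ∈ NS N T' := by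
      intro h
      obtain ⟨x, hx, hxv⟩ := mem_NS.mp h
      simp only [mem_union, mem_sdiff] at hx
      rcases hx with hx | hx
      · exact Or.inr (mem_NS.mpr ⟨x, hx, hxv⟩)
      · exact Or.inl (mem_NS.mpr ⟨x, hx.1, hxv⟩)
    have f4 : v ∈ betaR N B z → v ∈ NS N (B z') := fun h => mem_betaR.mp h z' hz
    have hwv := hw v
    by_cases b0 : v = u
    · subst b0
      simp only [mem_sdiff, mem_insert, true_or, not_true_eq_false, and_false, if_false, add_zero,
        zero_add, huW, not_false_eq_true, and_true]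
      by_cases b1 : v ∈ NS N ((T ∩ B z') ∪ (T ∩ T'))
      · have := (f2 hu b1).2
        simp only [this, hu, not_false_eq_true, and_self, if_true]
        split_ifs <;> linarith
      · simp only [b1, false_and, if_false]
        split_ifs <;> linarith
    · by_cases b1 : v ∈ W
      · simp [b1]
      · simp only [mem_sdiff, mem_insert, b0, b1, or_self, not_false_eq_true, and_true]
        by_cases b2 : v ∈ NS N (B z')
        · simp only [b2, not_true_eq_false, and_false, if_false, add_zero]
          by_cases b3 : v ∈ NS N ((T ∩ B z') ∪ (T ∩ T'))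
          · simp only [b3, f1 b3, true_and]; exact le_refl _
          · simp only [b3, false_and, if_false]; split_ifs <;> linarith
        · have b4 : v ∉ betaR N B z := fun h => b2 (f4 h)
          simp only [b2, b4, not_false_eq_true, and_true]
          by_cases b3 : v ∈ NS N ((T ∩ B z') ∪ (T ∩ T'))
          · obtain ⟨c1, c2⟩ := f2 b2 b3
            simp only [b3, c1, c2, if_true]
            split_ifs <;> linarith
          · simp only [b3, if_false, zero_add]
            by_cases b5 : v ∈ NS N (T' ∪ (T \ B z'))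
            · rcases f3 b5 with c | c
              · simp only [b5, c, if_true]; split_ifs <;> linarith
              · simp only [b5, c, if_true]; split_ifs <;> linarith
            · simp only [b5, if_false]; split_ifs <;> linarith
  simp only [gain] at g1 g2 ⊢
  linarith

/-- telescoping along a list without repetition -/
lemma telescope : ∀ (l : List V), l.Nodup →
    ∃ W : V → Finset V, (∀ u ∈ l, u ∉ W u) ∧
      ∀ F : Finset V → ℝ,
        ∑ u ∈ l.toFinset, (F (insert u (W u)) - F (W u)) = F l.toFinset - F ∅ := by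
  intro l
  induction l with
  | nil => exact fun _ => ⟨fun _ => ∅, by simp, by simp⟩
  | cons a l ih =>
    intro hn
    have hna := (List.nodup_cons.mp hn)
    obtain ⟨W, h1, h2⟩ := ih hna.2
    have ha : a ∉ l.toFinset := by simpa using hna.1
    refine ⟨fun u => if u = a then l.toFinset else W u, ?_, ?_⟩
    · intro u hu
      by_cases hua : u = a
      · subst hua; simp [hna.1]
      · simp only [hua, if_false]
        exact h1 u (by simpa [hua] using hu)
    · intro F
      rw [List.toFinset_cons, sum_insert ha]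
      have e : ∑ u ∈ l.toFinset, (F (insert u (if u = a then l.toFinset else W u)) -
          F (if u = a then l.toFinset else W u)) =
          ∑ u ∈ l.toFinset, (F (insert u (W u)) - F (W u)) := by
        refine sum_congr rfl (fun u hu => ?_)
        have : u ≠ a := fun h => ha (h ▸ hu)
        simp [this]
      rw [e, h2 F]
      simp

lemma telescope_univ : ∃ W : V → Finset V, (∀ u, u ∉ W u) ∧
      ∀ F : Finset V → ℝ, ∑ u, (F (insert u (W u)) - F (W u)) = F univ - F ∅ := by
  obtain ⟨W, h1, h2⟩ := telescope (V := V) (univ : Finset V).toList (nodup_toList _)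
  refine ⟨W, fun u => h1 u (by simp), fun F => ?_⟩
  have := h2 F
  simpa using this

/-- (★) -/
theorem star (hw : ∀ v, 0 ≤ w v)
    (hR : ∀ z, ∀ T, T ⊆ gapR B U z → wt w T ≤ wt w (NS N T \ NS N (B z)))
    (hC : ∀ x, ∀ T : Finset V, (∀ z ∈ T, x ∈ gapR B U z) →
      wt w T ≤ wt w ((NS N T).filter (fun z => x ∈ cA N U z))) :
    ∑ z, w z * wt w (PR N B U z) + ∑ z, w z * wt w (QR N B U z) ≤
      ∑ z, w z * wt w (KR N B U z) + ∑ z, w z * wt w (gapR B U z) := by
  obtain ⟨W, hW, htel⟩ := telescope_univ (V := V)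
  -- increments
  set dP : V → V → ℝ := fun z u => mm N w (PR N B U z) (betaR N B z) (insert u (W u)) -
    mm N w (PR N B U z) (betaR N B z) (W u) with hdP
  set dG : V → V → ℝ := fun z u => mm N w (gapR B U z) (NS N (B z)) (insert u (W u)) -
    mm N w (gapR B U z) (NS N (B z)) (W u) with hdG
  have hPsum : ∀ z, wt w (PR N B U z) ≤ ∑ u, dP z u := by
    intro z
    rw [hdP, htel (fun W => mm N w (PR N B U z) (betaR N B z) W), mm_univ hw]
    have := mm_empty_le (N := N) (w := w) (PR N B U z) (betaR N B z) (hall_a hw hR z)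
    linarith
  have hGsum : ∀ z, ∑ u, dG z u ≤ wt w (gapR B U z) := by
    intro z
    rw [hdG, htel (fun W => mm N w (gapR B U z) (NS N (B z)) W), mm_univ hw]
    have := mm_nonneg (N := N) (w := w) (gapR B U z) (NS N (B z)) ∅
    linarith
  have hdP0 : ∀ z u, 0 ≤ dP z u := fun z u => by
    have := mm_mono (N := N) hw (PR N B U z) (betaR N B z) (subset_insert u (W u))
    simp only [hdP]; linarith
  have hdG0 : ∀ z u, 0 ≤ dG z u := fun z u => by
    have := mm_mono (N := N) hw (gapR B U z) (NS N (B z)) (subset_insert u (W u))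
    simp only [hdG]; linarith
  have hdP1 : ∀ z u, dP z u ≤ w u := fun z u => by
    have := mm_insert_le (N := N) hw (PR N B U z) (betaR N B z) (W u) u
    simp only [hdP]; linarith
  have hdG1 : ∀ z u, dG z u ≤ w u := fun z u => by
    have := mm_insert_le (N := N) hw (gapR B U z) (NS N (B z)) (W u) u
    simp only [hdG]; linarith
  have hPK : ∀ z, NS N (PR N B U z) \ betaR N B z ⊆ KR N B U z := fun z =>
    sdiff_subset_sdiff (NS_mono (filter_subset _ _)) (Subset.refl _)
  have hdPK : ∀ z u, u ∉ KR N B U z → dP z u = 0 := fun z u hu => by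
    have := mm_insert_eq (N := N) hw (PR N B U z) (betaR N B z) (W u) u (fun h => hu (hPK z h))
    have h0 := hdP0 z u
    simp only [hdP] at h0 ⊢; linarith
  -- pointwise comparison
  have hcmp : ∀ z z' u, z' ∈ inN N z → u ∉ NS N (B z') → dP z u ≤ dG z' u := by
    intro z z' u hz hu
    have := mm_exchange (N := N) (B := B) (U := U) (W := W u) hw hz hu (hW u)
    simp only [hdP, hdG]; linarith
  -- fixed u
  have hfix : ∀ u, ∑ z ∈ univ.filter (fun z => u ∈ QR N B U z), w z * (w u - dG z u) ≤
      ∑ z ∈ univ.filter (fun z => u ∈ KR N B U z), w z * (w u - dP z u) := by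
    intro u
    refine layer_cake (w := w) hw _ _ _ (fun z => w u - dG z u) (fun z => w u - dP z u) rfl
      (fun z _ => by linarith [hdG1 z u]) (fun z _ => by linarith [hdP1 z u]) ?_
    intro s hs
    have hb := hall_b (N := N) hw hC u
      ((univ.filter (fun z => u ∈ QR N B U z)).filter (fun z => s ≤ w u - dG z u))
      (fun z hz => (mem_filter.mp (mem_filter.mp hz).1).2)
    refine hb.trans (wt_mono hw ?_)
    intro z hz
    obtain ⟨h1, h2⟩ := mem_filter.mp hz
    obtain ⟨z', hz', hzz⟩ := mem_NS.mp h1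
    obtain ⟨h3, h4⟩ := mem_filter.mp hz'
    have h5 := (mem_filter.mp h3).2
    refine mem_filter.mpr ⟨mem_filter.mpr ⟨mem_univ _, h2⟩, ?_⟩
    have := hcmp z z' u (mem_inN.mpr hzz) (mem_sdiff.mp h5).2
    linarith
  -- sum over u
  have hsum := sum_le_sum (fun u (_ : u ∈ (univ : Finset V)) => hfix u)
  have eK : ∀ (f : V → V → ℝ) (K : V → Finset V),
      ∑ u, ∑ z ∈ univ.filter (fun z => u ∈ K z), w z * (w u - f z u) =
      ∑ z, w z * (wt w (K z) - ∑ u ∈ K z, f z u) := by
    intro f K
    simp only [sum_filter]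
    rw [sum_comm]
    refine sum_congr rfl (fun z _ => ?_)
    rw [wt, ← sum_sub_distrib, mul_sum, ← sum_filter]
    refine sum_congr ?_ (fun _ _ => rfl)
    ext v; simp
  rw [eK, eK] at hsum
  have hL : ∑ z, w z * (wt w (QR N B U z) - wt w (gapR B U z)) ≤
      ∑ z, w z * (wt w (QR N B U z) - ∑ u ∈ QR N B U z, dG z u) := by
    refine sum_le_sum (fun z _ => mul_le_mul_of_nonneg_left ?_ (hw z))
    have h1 : ∑ u ∈ QR N B U z, dG z u ≤ ∑ u, dG z u :=
      sum_le_sum_of_subset_of_nonneg (subset_univ _) (fun u _ _ => hdG0 z u)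
    linarith [hGsum z]
  have hRr : ∑ z, w z * (wt w (KR N B U z) - ∑ u ∈ KR N B U z, dP z u) ≤
      ∑ z, w z * (wt w (KR N B U z) - wt w (PR N B U z)) := by
    refine sum_le_sum (fun z _ => mul_le_mul_of_nonneg_left ?_ (hw z))
    have h1 : ∑ u ∈ KR N B U z, dP z u = ∑ u, dP z u :=
      sum_subset (subset_univ _) (fun u _ hu => hdPK z u hu)
    linarith [hPsum z]
  have hfin := hL.trans (hsum.trans hRr)
  simp only [mul_sub, sum_sub_distrib] at hfin
  linarith

end star

end Vale.Agent.P038.H597
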