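import Vale.Agent.P038.H597.Cand

/-!
# P038: Seymour's second neighbourhood conjecture (weighted form, closed neighbourhoods)
-/

set_option linter.unusedSectionVars false

namespace Vale.Agent.P038.H597

open Finset

variable {V : Type*} [Fintype V] [DecidableEq V]

/-- `h(S) = w(N_1 S) - w(N_2 S)` -/
def hh (N : V → Finset V) (w : V → ℝ) (S : Finset V) : ℝ :=
  2 * wt w (NS N S) - wt w S - wt w (NS N (NS N S))

lemma sum_transpose (w : V → ℝ) (R : V → Finset V) :
    ∑ z, w z * wt w (R z) = ∑ b, w b * wt w (univ.filter (fun z => b ∈ R z)) := by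
  simp only [wt_eq_sum_ite, mul_sum, mem_filter, mem_univ, true_and]
  rw [sum_comm]
  refine sum_congr rfl (fun b _ => sum_congr rfl (fun z _ => ?_))
  split_ifs <;> ring

section jmc

variable {N : V → Finset V} {w : V → ℝ}

theorem jmc (hself : ∀ a, a ∈ N a) (hanti : ∀ a b, b ∈ N a → a ∈ N b → a = b)
    (hw : ∀ v, 0 < w v) : ∃ X Y : V → Finset V, (∀ a, a ∈ X a) ∧ (∀ a, a ∈ Y a) ∧
      (∀ a b, a ≠ b → ¬ (b ∈ NS N (X a) ∧ a ∈ NS N (Y b))) ∧
      ∑ a, w a * (hh N w (X a) + hh N w (Y a)) ≤ 0 := by
  have hw0 : ∀ v, 0 ≤ w v := fun v => (hw v).le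
  obtain ⟨B, U, hF, hmin⟩ := inout hself hanti hw
  set X : V → Finset V := fun a => rI N B a with hX
  set Y : V → Finset V := fun b => univ.filter (fun a => b ∉ cJ N U a) with hY
  have hXB : ∀ a, NS N (X a) ⊆ B a := by
    intro a u hu
    obtain ⟨x, hx, hxu⟩ := mem_NS.mp hu
    exact mem_rI.mp hx hxu
  have hYU : ∀ b, NS N (Y b) ⊆ univ.filter (fun a => b ∉ U a) := by
    intro b u hu
    obtain ⟨y, hy, hyu⟩ := mem_NS.mp hu
    refine mem_filter.mpr ⟨mem_univ _, fun hc => (mem_filter.mp hy).2 ?_⟩
    exact mem_cJ.mpr ⟨u, hyu, hc⟩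
  have hXa : ∀ a, a ∈ X a := fun a => mem_rI.mpr (hF.hA a)
  have hYa : ∀ a, a ∈ Y a := by
    intro a
    refine mem_filter.mpr ⟨mem_univ _, fun hc => ?_⟩
    obtain ⟨y, hy, hyu⟩ := mem_cJ.mp hc
    exact hF.hU y a hy hyu
  have hcomp : ∀ a b, a ≠ b → ¬ (b ∈ NS N (X a) ∧ a ∈ NS N (Y b)) := by
    rintro a b hab ⟨h1, h2⟩
    exact (mem_filter.mp (hYU b h2)).2 (hF.hB a b (hXB a h1) hab.symm)
  refine ⟨X, Y, hXa, hYa, hcomp, ?_⟩
  -- the new outer pair
  set U2 : V → Finset V := fun a => univ.filter (fun b => a ∉ NS N (Y b)) with hU2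
  have hF2 : Feas N (fun a => NS N (X a)) U2 := by
    refine ⟨fun a u hu => mem_NS.mpr ⟨a, hXa a, hu⟩, fun z b hz hb => ?_, fun a b hb hba => ?_⟩
    · exact (mem_filter.mp hb).2 (mem_NS.mpr ⟨b, hYa b, hz⟩)
    · exact mem_filter.mpr ⟨mem_univ _, fun hc => hcomp a b hba.symm ⟨hb, hc⟩⟩
  have h1 := hmin _ _ hF2
  -- lower bound for the inner cost
  have h2 : ∑ a, w a * (wt w (NS N (X a)) - wt w (X a)) +
      ∑ b, w b * (wt w (NS N (Y b)) - wt w (Y b)) ≤ fi N w B U := by
    have e1 : fi N w B U = ∑ a, w a * (wt w (B a) - wt w (rI N B a)) +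
        ∑ b, w b * (wt w (univ.filter (fun a => b ∈ cJ N U a)) -
          wt w (univ.filter (fun a => b ∈ U a))) := by
      have t1 := sum_transpose w (cJ N U)
      have t2 := sum_transpose w U
      simp only [fi, mul_add, mul_sub, sum_add_distrib, sum_sub_distrib]
      rw [t1, t2]; ring
    rw [e1]
    refine add_le_add (sum_le_sum (fun a _ => mul_le_mul_of_nonneg_left ?_ (hw0 a)))
      (sum_le_sum (fun b _ => mul_le_mul_of_nonneg_left ?_ (hw0 b)))
    · have := wt_mono hw0 (hXB a)
      simp only [hX] at this ⊢; linarith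
    · have t1 := wt_mono hw0 (hYU b)
      have t2 : wt w (univ.filter (fun a => b ∉ U a)) + wt w (univ.filter (fun a => b ∈ U a)) =
          wt w univ := by
        rw [add_comm]; exact sum_filter_add_sum_filter_not _ _ _
      have t3 : wt w (Y b) + wt w (univ.filter (fun a => b ∈ cJ N U a)) = wt w univ := by
        rw [add_comm]; exact sum_filter_add_sum_filter_not _ _ _
      linarith
  have h3 : fo N w (fun a => NS N (X a)) U2 =
      ∑ a, w a * (wt w (NS N (NS N (X a))) - wt w (NS N (X a))) +
      ∑ b, w b * (wt w (NS N (NS N (Y b))) - wt w (NS N (Y b))) := by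
    have t1 := sum_transpose w U2
    have t2 := sum_transpose w (cA N U2)
    simp only [fo, mul_add, mul_sub, sum_add_distrib, sum_sub_distrib]
    rw [t1, t2]
    have e1 : ∀ b, wt w (univ.filter (fun z => b ∈ U2 z)) = wt w univ - wt w (NS N (Y b)) := by
      intro b
      have : wt w (univ.filter (fun z => z ∈ NS N (Y b))) +
          wt w (univ.filter (fun z => ¬ z ∈ NS N (Y b))) = wt w univ :=
        sum_filter_add_sum_filter_not _ _ _
      have e : univ.filter (fun z => z ∈ NS N (Y b)) = NS N (Y b) := by ext v; simp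
      rw [e] at this
      have e' : univ.filter (fun z => b ∈ U2 z) = univ.filter (fun z => ¬ z ∈ NS N (Y b)) := by
        ext v; simp [hU2]
      rw [e']; linarith
    have e2 : ∀ b, wt w (univ.filter (fun z => b ∈ cA N U2 z)) =
        wt w univ - wt w (NS N (NS N (Y b))) := by
      intro b
      have : wt w (univ.filter (fun z => z ∈ NS N (NS N (Y b)))) +
          wt w (univ.filter (fun z => ¬ z ∈ NS N (NS N (Y b)))) = wt w univ :=
        sum_filter_add_sum_filter_not _ _ _
      have e : univ.filter (fun z => z ∈ NS N (NS N (Y b))) = NS N (NS N (Y b)) := by ext v; simp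
      rw [e] at this
      have e' : univ.filter (fun z => b ∈ cA N U2 z) =
          univ.filter (fun z => ¬ z ∈ NS N (NS N (Y b))) := by
        ext v
        simp only [mem_filter, mem_univ, true_and, mem_cA, hU2, mem_inN]
        constructor
        · intro hc hv
          obtain ⟨y, hy, hyv⟩ := mem_NS.mp hv
          exact hc y hyv hy
        · intro hc y hyv hy
          exact hc (mem_NS.mpr ⟨y, hy, hyv⟩)
      rw [e']; linarith
    simp only [e1, e2, mul_sub, sum_sub_distrib]
    ring
  rw [h3] at h1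
  have h4 := h2.trans h1
  have h5 : ∑ a, w a * (hh N w (X a) + hh N w (Y a)) =
      (∑ a, w a * (wt w (NS N (X a)) - wt w (X a)) +
      ∑ b, w b * (wt w (NS N (Y b)) - wt w (Y b))) -
      (∑ a, w a * (wt w (NS N (NS N (X a))) - wt w (NS N (X a))) +
      ∑ b, w b * (wt w (NS N (NS N (Y b))) - wt w (NS N (Y b)))) := by
    rw [← sum_add_distrib, ← sum_add_distrib, ← sum_sub_distrib]
    refine sum_congr rfl (fun a _ => ?_)
    simp only [hh]; ring
  rw [h5]; linarith

end jmc

section G

variable {w : V → ℝ}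

/-- closed neighbourhood functions of oriented graphs in which every vertex violates the
second neighbourhood inequality -/
structure CE (w : V → ℝ) (N : V → Finset V) : Prop where
  hself : ∀ a, a ∈ N a
  hanti : ∀ a b, b ∈ N a → a ∈ N b → a = b
  pos : ∀ v, 0 < hh N w {v}

lemma hh_single (N : V → Finset V) (v : V) :
    hh N w {v} = 2 * wt w (N v) - w v - wt w (NS N (N v)) := by
  simp [hh, NS]

/-- helper294's theorem: in an arc-minimal counterexample all sets satisfy the strict inequality -/
theorem G_of_min (hw : ∀ v, 0 < w v) {N : V → Finset V} (hN : CE w N)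
    (hmin : ∀ N', CE w N' → ∑ v, (N v).card ≤ ∑ v, (N' v).card) (X : Finset V)
    (hX : NS N X ≠ X) : 0 < hh N w X := by
  have hw0 : ∀ v, 0 ≤ w v := fun v => (hw v).le
  have hsub : ∀ S : Finset V, S ⊆ NS N S := fun S x hx => mem_NS.mpr ⟨x, hx, hN.hself x⟩
  by_contra hcon
  push Not at hcon
  set L := NS N X \ X with hL
  have hLne : L.Nonempty := by
    rw [nonempty_iff_ne_empty]
    intro h
    apply hX
    exact Subset.antisymm (sdiff_eq_empty_iff_subset.mp h) (hsub X)
  set d : Finset V → ℝ := fun T => wt w (NS N T \ X) - 2 * wt w T with hd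
  have hdL : 0 ≤ d L := by
    have e1 : wt w (NS N X) = wt w X + wt w L := by
      have := wt_sdiff_add (w := w) (hsub X); linarith
    have e2 : NS N (NS N X) = X ∪ (NS N L \ X) := by
      ext u
      rw [mem_union, mem_sdiff]
      constructor
      · intro hu
        by_cases hc : u ∈ X
        · exact Or.inl hc
        · right
          refine ⟨?_, hc⟩
          obtain ⟨y, hy, hyu⟩ := mem_NS.mp hu
          by_cases hyX : y ∈ X
          · exact hsub L (mem_sdiff.mpr ⟨mem_NS.mpr ⟨y, hyX, hyu⟩, hc⟩)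
          · exact mem_NS.mpr ⟨y, mem_sdiff.mpr ⟨hy, hyX⟩, hyu⟩
      · rintro (h | h)
        · exact hsub _ (hsub _ h)
        · exact NS_mono sdiff_subset h.1
    have e3 : wt w (NS N (NS N X)) = wt w X + wt w (NS N L \ X) := by
      rw [e2]; exact wt_union_disj disjoint_sdiff
    simp only [hh, e1, e3] at hcon
    simp only [hd]; linarith
  obtain ⟨T, hT, hTmin⟩ := exists_min_image L.ssubsets d ⟨∅, mem_ssubsets.mpr
    ((empty_ssubset).mpr hLne)⟩
  rw [mem_ssubsets] at hT
  have hd0 : d T ≤ 0 := by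
    have := hTmin ∅ (mem_ssubsets.mpr ((empty_ssubset).mpr hLne))
    simpa [hd, NS] using this
  have hTX : Disjoint T X := by
    rw [disjoint_left]
    intro v hv hvX
    exact (mem_sdiff.mp (hT.1 hv)).2 hvX
  have key : ∀ D' : Finset V, D' ⊆ L \ T → 2 * wt w D' ≤ wt w (NS N D' \ (NS N T ∪ X)) := by
    intro D' hD'
    have h1 : d T ≤ d (T ∪ D') := by
      by_cases h : T ∪ D' = L
      · rw [h]; linarith
      · apply hTmin
        rw [mem_ssubsets]
        refine ssubset_of_subset_of_ne (union_subset hT.1 (hD'.trans sdiff_subset)) h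
    have h2 : wt w (T ∪ D') = wt w T + wt w D' := wt_union_disj (by
      rw [disjoint_left]; intro v hv hv2; exact (mem_sdiff.mp (hD' hv2)).2 hv)
    have h3 : NS N (T ∪ D') \ X = (NS N T \ X) ∪ (NS N D' \ (NS N T ∪ X)) := by
      ext u
      simp only [NS, union_biUnion, mem_sdiff, mem_union]
      tauto
    have h4 : wt w (NS N (T ∪ D') \ X) = wt w (NS N T \ X) + wt w (NS N D' \ (NS N T ∪ X)) := by
      rw [h3]
      apply wt_union_disj
      rw [disjoint_left]
      intro v hv hv2
      exact (mem_sdiff.mp hv2).2 (mem_union_left _ (mem_sdiff.mp hv).1)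
    simp only [hd, h2, h4] at h1
    linarith
  -- delete the arcs
  set N' : V → Finset V := fun y => if y ∈ X then N y ∩ (X ∪ T) else N y with hN'
  have hsubN : ∀ y, N' y ⊆ N y := fun y => by
    by_cases h : y ∈ X
    · simp only [hN', h, if_true]; exact inter_subset_left
    · simp only [hN', h, if_false]; exact Subset.refl _
  have hCE : CE w N' := by
    refine ⟨fun a => ?_, fun a b h1 h2 => hN.hanti a b (hsubN a h1) (hsubN b h2), fun v => ?_⟩
    · by_cases h : a ∈ X
      · simp only [hN', h, if_true, mem_inter, mem_union, true_or, and_true]; exact hN.hself a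
      · simp only [hN', h, if_false]; exact hN.hself a
    · have hv := hN.pos v
      rw [hh_single] at hv ⊢
      have hNSsub : NS N' (N' v) ⊆ NS N (N v) := by
        intro u hu
        obtain ⟨c, hc, hcu⟩ := mem_NS.mp hu
        exact mem_NS.mpr ⟨c, hsubN v hc, hsubN c hcu⟩
      by_cases h : v ∈ X
      · set Dv := N v \ (X ∪ T) with hDv
        have hDvL : Dv ⊆ L \ T := by
          intro u hu
          rw [hDv, mem_sdiff, mem_union, not_or] at hu
          rw [mem_sdiff, hL, mem_sdiff]
          exact ⟨⟨mem_NS.mpr ⟨v, h, hu.1⟩, hu.2.1⟩, hu.2.2⟩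
        have k := key Dv hDvL
        have e1 : wt w (N' v) + wt w Dv = wt w (N v) := by
          have : N' v = N v ∩ (X ∪ T) := by simp only [hN', h, if_true]
          rw [this, ← wt_union_disj (disjoint_left.mpr (fun x hx hx2 =>
            (mem_sdiff.mp hx2).2 (mem_inter.mp hx).2)), union_comm, sdiff_union_inter]
        have e2 : NS N' (N' v) ⊆ NS N (N v) \ (NS N Dv \ (NS N T ∪ X)) := by
          intro u hu
          rw [mem_sdiff]
          refine ⟨hNSsub hu, fun hc => ?_⟩
          have hc2 := (mem_sdiff.mp hc).2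
          obtain ⟨c, hcv, hcu⟩ := mem_NS.mp hu
          have hc3 : c ∈ X ∪ T := by
            have : N' v = N v ∩ (X ∪ T) := by simp only [hN', h, if_true]
            rw [this] at hcv
            exact (mem_inter.mp hcv).2
          apply hc2
          by_cases hcX : c ∈ X
          · have : N' c = N c ∩ (X ∪ T) := by simp only [hN', hcX, if_true]
            rw [this] at hcu
            rcases mem_union.mp (mem_inter.mp hcu).2 with h6 | h6
            · exact mem_union_right _ h6
            · exact mem_union_left _ (hsub T h6)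
          · have hcT : c ∈ T := by
              rcases mem_union.mp hc3 with h6 | h6
              · exact absurd h6 hcX
              · exact h6
            exact mem_union_left _ (mem_NS.mpr ⟨c, hcT, hsubN c hcu⟩)
        have e3 : NS N Dv \ (NS N T ∪ X) ⊆ NS N (N v) :=
          sdiff_subset.trans (NS_mono sdiff_subset)
        have e4 := wt_sdiff_add (w := w) e3
        have e5 := wt_mono hw0 e2
        linarith
      · have e1 : N' v = N v := by simp only [hN', h, if_false]
        rw [e1] at hNSsub ⊢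
        have := wt_mono hw0 hNSsub
        linarith
  have hlt : ∑ v, (N' v).card < ∑ v, (N v).card := by
    obtain ⟨z, hzL, hzT⟩ := exists_of_ssubset hT
    obtain ⟨y, hy, hyz⟩ := mem_NS.mp (mem_sdiff.mp hzL).1
    refine sum_lt_sum (fun v _ => card_le_card (hsubN v)) ⟨y, mem_univ _, card_lt_card ?_⟩
    refine ⟨hsubN y, fun hc => ?_⟩
    have h1 := hc hyz
    have : N' y = N y ∩ (X ∪ T) := by simp only [hN', hy, if_true]
    rw [this] at h1
    rcases mem_union.mp (mem_inter.mp h1).2 with h2 | h2
    · exact (mem_sdiff.mp hzL).2 h2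
    · exact hzT h2
  exact absurd (hmin N' hCE) (not_le.mpr hlt)

/-- **Seymour's second neighbourhood conjecture**, weighted form with closed neighbourhoods. -/
theorem snc_closed [Nonempty V] (hw : ∀ v, 0 < w v) (N : V → Finset V) (hself : ∀ a, a ∈ N a)
    (hanti : ∀ a b, b ∈ N a → a ∈ N b → a = b) : ∃ v, hh N w {v} ≤ 0 := by
  classical
  by_contra hcon
  push Not at hcon
  have hw0 : ∀ v, 0 ≤ w v := fun v => (hw v).le
  -- arc-minimal counterexample
  obtain ⟨M, hM, hmin⟩ := exists_min_image ((univ : Finset (V → Finset V)).filter (fun N => CE w N))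
    (fun N => ∑ v, (N v).card) ⟨N, by simp only [mem_filter, mem_univ, true_and]; exact ⟨hself, hanti, hcon⟩⟩
  have hCE : CE w M := (mem_filter.mp hM).2
  have hmin' : ∀ N', CE w N' → ∑ v, (M v).card ≤ ∑ v, (N' v).card := fun N' h =>
    hmin N' (mem_filter.mpr ⟨mem_univ _, h⟩)
  have hG := G_of_min hw hCE hmin'
  have hsub : ∀ S : Finset V, S ⊆ NS M S := fun S x hx => mem_NS.mpr ⟨x, hx, hCE.hself x⟩
  have hG0 : ∀ X : Finset V, 0 ≤ hh M w X := by
    intro X
    by_cases h : NS M X = X
    · simp only [hh, h]; linarith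
    · exact (hG X h).le
  obtain ⟨X, Y, hX, hY, hcomp, hsum⟩ := jmc hCE.hself hCE.hanti hw
  -- a minimal closed set
  obtain ⟨S, hS, hSmin⟩ := exists_min_image
    ((univ : Finset (Finset V)).filter (fun S => S.Nonempty ∧ NS M S = S)) Finset.card
    ⟨univ, by
      simp only [mem_filter, mem_univ, true_and]
      exact ⟨univ_nonempty, Subset.antisymm (subset_univ _) (hsub _)⟩⟩
  obtain ⟨hSne, hScl⟩ := (mem_filter.mp hS).2
  obtain ⟨a, ha⟩ := hSne
  have hout : ∃ b ∈ M a, b ≠ a := by
    by_contra hc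
    push Not at hc
    have e : M a = {a} := by
      ext x
      rw [mem_singleton]
      exact ⟨fun hx => hc x hx, fun hx => hx ▸ hCE.hself a⟩
    have := hCE.pos a
    rw [hh_single, e] at this
    simp [NS, e] at this
    linarith
  obtain ⟨b, hb, hba⟩ := hout
  have hbS : b ∈ S := hScl ▸ mem_NS.mpr ⟨a, ha, hb⟩
  have hYb : NS M (Y b) ≠ Y b := by
    intro hcl
    have h1 : NS M (Y b ∩ S) = Y b ∩ S := by
      refine Subset.antisymm ?_ (hsub _)
      refine subset_inter ?_ ?_
      · calc NS M (Y b ∩ S) ⊆ NS M (Y b) := NS_mono inter_subset_left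
          _ = Y b := hcl
      · calc NS M (Y b ∩ S) ⊆ NS M S := NS_mono inter_subset_right
          _ = S := hScl
    have h2 := hSmin (Y b ∩ S) (by
      simp only [mem_filter, mem_univ, true_and]
      exact ⟨⟨b, mem_inter.mpr ⟨hY b, hbS⟩⟩, h1⟩)
    have h3 : Y b ∩ S = S := eq_of_subset_of_card_le inter_subset_right h2
    have h4 : a ∈ Y b := (mem_inter.mp (h3.symm ▸ ha : a ∈ Y b ∩ S)).1
    exact hcomp a b hba.symm ⟨mem_NS.mpr ⟨a, hX a, hb⟩, hsub _ h4⟩
  have hpos : 0 < ∑ a, w a * (hh M w (X a) + hh M w (Y a)) := by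
    refine sum_pos' (fun c _ => mul_nonneg (hw0 c) (add_nonneg (hG0 _) (hG0 _))) ⟨b, mem_univ _, ?_⟩
    exact mul_pos (hw b) (add_pos_of_nonneg_of_pos (hG0 _) (hG _ hYb))
  linarith

end G

end Vale.Agent.P038.H597
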